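import Vale.Agent.P134.Recurrent

/-! For monotone bounded entire Allen-Cahn solutions, windows far from one-dimensional have zero
density along every transversal subspace of codimension at most three; hence recurrent solutions,
in particular almost periodic and periodic ones, are one-dimensional. -/

namespace Vale.Agent.Results.P134.RecurrentDeGiorgi

open Vale.Agent.P134

/-- A solution of the Allen-Cahn equation on the whole space, of modulus at most one and increasing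
in the coordinate `m`. -/
def MonotoneSolution {n : ℕ} (u : EuclideanSpace ℝ (Fin n) → ℝ) (m : Fin n) : Prop :=
  ContDiff ℝ 2 u ∧ (∀ x, Laplacian.laplacian u x = u x ^ 3 - u x) ∧ (∀ x, |u x| ≤ 1) ∧
    ∀ x, 0 < fderiv ℝ u x (EuclideanSpace.single m 1)

/-- One-dimensional functions. -/
def OneDim {n : ℕ} (u : EuclideanSpace ℝ (Fin n) → ℝ) : Prop :=
  ∃ e : EuclideanSpace ℝ (Fin n), ‖e‖ = 1 ∧ ∃ h : ℝ → ℝ, ∀ x, u x = h (inner ℝ e x)

/-- The window of radius `R` at `p` is `δ`-far from every one-dimensional function. -/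
def FarWindow {n : ℕ} (u : EuclideanSpace ℝ (Fin n) → ℝ) (R δ : ℝ)
    (p : EuclideanSpace ℝ (Fin n)) : Prop :=
  ∀ e : EuclideanSpace ℝ (Fin n), ‖e‖ = 1 → ∀ h : ℝ → ℝ,
    ∃ x, ‖x‖ ≤ R ∧ δ ≤ |u (x + p) - h (inner ℝ e x)|

/-- Far windows have zero density along `P`. -/
def FarWindowsRare {n : ℕ} (u : EuclideanSpace ℝ (Fin n) → ℝ)
    (P : Submodule ℝ (EuclideanSpace ℝ (Fin n))) : Prop :=
  ∀ (R δ η : ℝ), 0 < δ → 0 < η → ∃ M₀ : ℝ, ∀ M ≥ M₀, ∀ F : Finset (EuclideanSpace ℝ (Fin n)),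
    (∀ p ∈ F, p ∈ P ∧ ‖p‖ ≤ M) → (∀ p ∈ F, ∀ p' ∈ F, p ≠ p' → 1 ≤ ‖p - p'‖) →
    (∀ p ∈ F, FarWindow u R δ p) → (F.card : ℝ) ≤ η * M ^ Module.finrank ℝ P

theorem result :
    (∀ (n : ℕ) (u : EuclideanSpace ℝ (Fin n) → ℝ) (m : Fin n)
        (P : Submodule ℝ (EuclideanSpace ℝ (Fin n))),
      MonotoneSolution u m → n ≤ Module.finrank ℝ P + 3 →
      (EuclideanSpace.single m (1 : ℝ) ∉ P → FarWindowsRare u P ∧ (RecurrentAlong u P → OneDim u)) ∧
      (AlmostPeriodicAlong u P → OneDim u)) ∧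
    (∀ (n k : ℕ) (u : EuclideanSpace ℝ (Fin n) → ℝ) (m : Fin n)
        (w : Fin k → EuclideanSpace ℝ (Fin n)),
      MonotoneSolution u m → n ≤ k + 3 → LinearIndependent ℝ w → (∀ i x, u (x + w i) = u x) →
      OneDim u) := by
  refine ⟨?_, ?_⟩
  · rintro n u m P ⟨hu, heq, hb, hm⟩ hn
    have h : Sol u m := ⟨hu, hb, fun x => (laplacian_eq_lap hu x).symm.trans (heq x), hm⟩
    refine ⟨fun hP => ⟨fun R δ η hδ hη => ?_, oneDim_of_recurrent h hP hn⟩, fun hap =>
      oneDim_of_recurrent h (not_mem_of_monotone h hap) hn (recurrent_of_almostPeriodic hap)⟩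
    obtain ⟨M₀, hM₀⟩ := windows_rare h hP hn R δ η hδ hη
    exact ⟨M₀, fun M hM F hF hsep hfar => hM₀ M hM F hF hsep fun p hp e he g =>
      (hfar p hp e he g).imp fun x hx => ⟨by simpa using hx.1, hx.2⟩⟩
  · rintro n k u m w ⟨hu, heq, hb, hm⟩ hn hw hper
    have h : Sol u m := ⟨hu, hb, fun x => (laplacian_eq_lap hu x).symm.trans (heq x), hm⟩
    have hap := almostPeriodic_of_periods h w hper
    exact oneDim_of_recurrent h (not_mem_of_monotone h hap)
      (by rw [finrank_span_eq_card hw, Fintype.card_fin]; exact hn) (recurrent_of_almostPeriodic hap)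

end Vale.Agent.Results.P134.RecurrentDeGiorgi
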